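import Vale.Agent.P155.D4.Fin
import Mathlib

/-!
# P155, block D4, part 2: compactness
-/

namespace Vale.Agent.P155.D4

open Finset Metric

variable {J : ℕ}

/-- the norm of the coefficients -/
noncomputable def nn (a : ℝ) (c : Cf J) : ℝ := max |a| ‖c‖

theorem nn_eq (a : ℝ) (c : Cf J) : nn a c = ‖(a, c)‖ := by
  unfold nn
  rw [Prod.norm_def]
  rfl

theorem continuousAt_vv (k : Bool) (a0 : ℝ) (c0 : Cf J) {z0 : Fin 4 → ℝ} (hz : z0 ∈ reg) :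
    ContinuousAt (fun y : (ℝ × Cf J) × (Fin 4 → ℝ) => vv k y.1.1 y.1.2 y.2) ((a0, c0), z0) := by
  unfold vv kap
  have h1 : ContinuousAt (fun y : (ℝ × Cf J) × (Fin 4 → ℝ) => Pc y.1.2 y.2) ((a0, c0), z0) := by
    have : Continuous fun y : (ℝ × Cf J) × (Fin 4 → ℝ) => Pc y.1.2 y.2 :=
      continuous_Pc.comp ((continuous_snd.comp continuous_fst).prodMk continuous_snd)
    exact this.continuousAt
  have h0 : (z0 0 - z0 2) ^ 2 + (z0 1 - z0 3) ^ 2 ≠ 0 := by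
    have := rsq_ge hz
    linarith
  refine ContinuousAt.add (ContinuousAt.mul (by fun_prop) (ContinuousAt.div ?_ (by fun_prop) h0)) h1
  cases k
  · simp only [Bool.false_eq_true, if_false]
    fun_prop
  · simp only [if_true]
    fun_prop

/-- a box with constant sign near a given pair -/
theorem exists_box (k k' : Bool) (v0 v0' : ℝ × Cf J) (h : v0 ≠ 0) (h' : v0' ≠ 0) :
    ∃ U ∈ nhds (v0, v0'), ∃ (u : Fin 4 → ℝ) (ρ ε σ : ℝ), 0 < ρ ∧ 0 < ε ∧ (σ = 1 ∨ σ = -1) ∧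
      closedBall u ρ ⊆ reg ∧ ∀ v ∈ U, ∀ z ∈ closedBall u ρ,
        ε ≤ σ * (vv k v.1.1 v.1.2 z * vv k' v.2.1 v.2.2 z) := by
  obtain ⟨z0, hz0, hne⟩ := exists_ne (a := v0.1) (c := v0.2) (a' := v0'.1) (c' := v0'.2) k k' h h'
  set Φ0 := vv k v0.1 v0.2 z0 * vv k' v0'.1 v0'.2 z0 with hΦ0
  set σ : ℝ := if 0 < Φ0 then 1 else -1 with hσ
  have hσ' : σ = 1 ∨ σ = -1 := by
    rw [hσ]; split_ifs <;> simp
  have hpos : 0 < σ * Φ0 := by
    rw [hσ]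
    split_ifs with hh
    · linarith
    · have : Φ0 < 0 := lt_of_le_of_ne (not_lt.1 hh) hne
      linarith
  -- continuity of the product
  have hc : ContinuousAt (fun y : ((ℝ × Cf J) × (ℝ × Cf J)) × (Fin 4 → ℝ) =>
      σ * (vv k y.1.1.1 y.1.1.2 y.2 * vv k' y.1.2.1 y.1.2.2 y.2)) ((v0, v0'), z0) := by
    have h1 : ContinuousAt (fun y : ((ℝ × Cf J) × (ℝ × Cf J)) × (Fin 4 → ℝ) =>
        vv k y.1.1.1 y.1.1.2 y.2) ((v0, v0'), z0) := by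
      have := continuousAt_vv k v0.1 v0.2 hz0
      exact ContinuousAt.comp (x := ((v0, v0'), z0))
        (f := fun y : ((ℝ × Cf J) × (ℝ × Cf J)) × (Fin 4 → ℝ) => (y.1.1, y.2)) this
        (by fun_prop)
    have h2 : ContinuousAt (fun y : ((ℝ × Cf J) × (ℝ × Cf J)) × (Fin 4 → ℝ) =>
        vv k' y.1.2.1 y.1.2.2 y.2) ((v0, v0'), z0) := by
      have := continuousAt_vv k' v0'.1 v0'.2 hz0
      exact ContinuousAt.comp (x := ((v0, v0'), z0))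
        (f := fun y : ((ℝ × Cf J) × (ℝ × Cf J)) × (Fin 4 → ℝ) => (y.1.2, y.2)) this
        (by fun_prop)
    exact continuousAt_const.mul (h1.mul h2)
  have hev : ∀ᶠ y in nhds ((v0, v0'), z0), σ * Φ0 / 2 <
      σ * (vv k y.1.1.1 y.1.1.2 y.2 * vv k' y.1.2.1 y.1.2.2 y.2) :=
    hc.eventually (lt_mem_nhds (by show σ * Φ0 / 2 < σ * Φ0; linarith))
  rw [nhds_prod_eq] at hev
  obtain ⟨pa, ha, pb, hb, hab⟩ := Filter.eventually_prod_iff.1 hev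
  have hb' : {z | pb z} ∩ reg ∈ nhds z0 := Filter.inter_mem hb (isOpen_reg.mem_nhds hz0)
  obtain ⟨ρ, hρ, hball⟩ := Metric.nhds_basis_closedBall.mem_iff.1 hb'
  refine ⟨{v | pa v}, ha, z0, ρ, σ * Φ0 / 2, σ, hρ, by linarith, hσ',
    fun z hz => (hball hz).2, fun v hv z hz => ?_⟩
  exact (hab hv (hball hz).1).le

/-- boxes -/
structure Bx where
  u : Fin 4 → ℝ
  ρ : ℝ
  pos : 0 < ρ
  sub : closedBall u ρ ⊆ reg

/-- finitely many boxes suffice (unit sphere version) -/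
theorem exists_finset_sphere (J : ℕ) (k k' : Bool) :
    ∃ (S : List Bx) (ε : ℝ), 0 < ε ∧ ∀ v v' : ℝ × Cf J, ‖v‖ = 1 → ‖v'‖ = 1 →
      ∃ b ∈ S, ∃ σ : ℝ, (σ = 1 ∨ σ = -1) ∧ ∀ z ∈ closedBall b.u b.ρ,
        ε ≤ σ * (vv k v.1 v.2 z * vv k' v'.1 v'.2 z) := by
  have hK : IsCompact (sphere (0 : ℝ × Cf J) 1 ×ˢ sphere (0 : ℝ × Cf J) 1) :=
    (isCompact_sphere _ _).prod (isCompact_sphere _ _)
  have key : ∀ w ∈ sphere (0 : ℝ × Cf J) 1 ×ˢ sphere (0 : ℝ × Cf J) 1,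
      ∃ U ∈ nhds w, ∃ (b : Bx) (ε σ : ℝ), 0 < ε ∧ (σ = 1 ∨ σ = -1) ∧
        ∀ v ∈ U, ∀ z ∈ closedBall b.u b.ρ,
          ε ≤ σ * (vv k v.1.1 v.1.2 z * vv k' v.2.1 v.2.2 z) := by
    rintro ⟨v0, v0'⟩ ⟨h, h'⟩
    have h1 : v0 ≠ 0 := by
      rintro rfl
      simp at h
    have h2 : v0' ≠ 0 := by
      rintro rfl
      simp at h'
    obtain ⟨U, hU, u, ρ, ε, σ, hρ, hε, hσ, hsub, hall⟩ := exists_box k k' v0 v0' h1 h2
    exact ⟨U, hU, ⟨u, ρ, hρ, hsub⟩, ε, σ, hε, hσ, hall⟩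
  -- induction on compact sets
  have := hK.induction_on (p := fun s => ∃ (S : List Bx) (ε : ℝ), 0 < ε ∧ ∀ w ∈ s,
      ∃ b ∈ S, ∃ σ : ℝ, (σ = 1 ∨ σ = -1) ∧ ∀ z ∈ closedBall b.u b.ρ,
        ε ≤ σ * (vv k w.1.1 w.1.2 z * vv k' w.2.1 w.2.2 z))
    ⟨[], 1, one_pos, fun w hw => absurd hw (Set.notMem_empty _)⟩
    (by
      rintro s t hst ⟨S, ε, hε, h⟩
      exact ⟨S, ε, hε, fun w hw => h w (hst hw)⟩)
    (by
      rintro s t ⟨S, ε, hε, h⟩ ⟨S', ε', hε', h'⟩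
      refine ⟨S ++ S', min ε ε', lt_min hε hε', ?_⟩
      rintro w (hw | hw)
      · obtain ⟨b, hb, σ, hσ, hz⟩ := h w hw
        exact ⟨b, List.mem_append_left _ hb, σ, hσ, fun z hz' => (min_le_left _ _).trans (hz z hz')⟩
      · obtain ⟨b, hb, σ, hσ, hz⟩ := h' w hw
        exact ⟨b, List.mem_append_right _ hb, σ, hσ,
          fun z hz' => (min_le_right _ _).trans (hz z hz')⟩)
    (by
      intro w hw
      obtain ⟨U, hU, b, ε, σ, hε, hσ, hall⟩ := key w hw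
      exact ⟨U, mem_nhdsWithin_of_mem_nhds hU, [b], ε, hε,
        fun v hv => ⟨b, List.mem_singleton_self b, σ, hσ, hall v hv⟩⟩)
  obtain ⟨S, ε, hε, h⟩ := this
  refine ⟨S, ε, hε, fun v v' hv hv' => h (v, v') ⟨by simpa using hv, by simpa using hv'⟩⟩

/-- finitely many boxes suffice (homogeneous version) -/
theorem exists_boxes (J : ℕ) (k k' : Bool) :
    ∃ (S : List Bx) (ε : ℝ), 0 < ε ∧ ∀ (a a' : ℝ) (c c' : Cf J), nn a c ≠ 0 → nn a' c' ≠ 0 →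
      ∃ b ∈ S, ∃ σ : ℝ, (σ = 1 ∨ σ = -1) ∧ ∀ z ∈ closedBall b.u b.ρ,
        ε * (nn a c * nn a' c') ≤ σ * (vv k a c z * vv k' a' c' z) := by
  obtain ⟨S, ε, hε, h⟩ := exists_finset_sphere J k k'
  refine ⟨S, ε, hε, fun a a' c c' h1 h2 => ?_⟩
  have hN : 0 < nn a c := lt_of_le_of_ne (by rw [nn_eq]; exact norm_nonneg _) (Ne.symm h1)
  have hN' : 0 < nn a' c' := lt_of_le_of_ne (by rw [nn_eq]; exact norm_nonneg _) (Ne.symm h2)
  obtain ⟨b, hb, σ, hσ, hz⟩ := h ((nn a c)⁻¹ • (a, c)) ((nn a' c')⁻¹ • (a', c'))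
    (by rw [norm_smul, ← nn_eq, norm_inv, Real.norm_of_nonneg hN.le, inv_mul_cancel₀ h1])
    (by rw [norm_smul, ← nn_eq, norm_inv, Real.norm_of_nonneg hN'.le, inv_mul_cancel₀ h2])
  refine ⟨b, hb, σ, hσ, fun z hz' => ?_⟩
  have := hz z hz'
  simp only [Prod.smul_mk, smul_eq_mul, vv_smul] at this
  calc ε * (nn a c * nn a' c') ≤ (σ * ((nn a c)⁻¹ * vv k a c z * ((nn a' c')⁻¹ * vv k' a' c' z))) *
        (nn a c * nn a' c') := mul_le_mul_of_nonneg_right this (by positivity)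
    _ = σ * (vv k a c z * vv k' a' c' z) := by
        field_simp

theorem abs_vv_le {k : Bool} {a : ℝ} {c : Cf J} {z : Fin 4 → ℝ} (hz : z ∈ reg) :
    |vv k a c z| ≤ (1 + ((J : ℝ) + 1) ^ 4) * nn a c := by
  have h1 : |kap k (z 0 - z 2) (z 1 - z 3)| ≤ 1 := by
    unfold kap
    have hr := rsq_ge hz
    rw [abs_div, abs_of_pos (by linarith : 0 < (z 0 - z 2) ^ 2 + (z 1 - z 3) ^ 2),
      div_le_one (by linarith)]
    apply abs_le_of_sq_le_sq _ (by linarith)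
    have : (if k then z 1 - z 3 else z 0 - z 2) ^ 2 ≤ (z 0 - z 2) ^ 2 + (z 1 - z 3) ^ 2 := by
      cases k
      · simp only [Bool.false_eq_true, if_false]; nlinarith [sq_nonneg (z 1 - z 3)]
      · simp only [if_true]; nlinarith [sq_nonneg (z 0 - z 2)]
    nlinarith
  have h2 : |Pc c z| ≤ ((J : ℝ) + 1) ^ 4 * ‖c‖ := by
    apply abs_Pc_le
    obtain ⟨⟨h1, h2⟩, ⟨h3, h3'⟩, ⟨h4, h5⟩, ⟨h6, h7⟩⟩ := mem_reg.1 hz
    rw [Fin.forall_fin_succ, Fin.forall_fin_succ, Fin.forall_fin_succ, Fin.forall_fin_succ]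
    refine ⟨abs_le.2 ⟨by linarith, by linarith⟩, abs_le.2 ⟨?_, ?_⟩, abs_le.2 ⟨?_, ?_⟩,
      abs_le.2 ⟨?_, ?_⟩, fun i => i.elim0⟩
    · show -1 ≤ z 1; linarith
    · show z 1 ≤ 1; linarith
    · show -1 ≤ z 2; linarith
    · show z 2 ≤ 1; linarith
    · show -1 ≤ z 3; linarith
    · show z 3 ≤ 1; linarith
  unfold vv
  calc |a * kap k (z 0 - z 2) (z 1 - z 3) + Pc c z|
      ≤ |a * kap k (z 0 - z 2) (z 1 - z 3)| + |Pc c z| := abs_add_le _ _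
    _ ≤ nn a c * 1 + ((J : ℝ) + 1) ^ 4 * nn a c := by
        rw [abs_mul]
        refine add_le_add (mul_le_mul (le_max_left _ _) h1 (abs_nonneg _)
          ((abs_nonneg _).trans (le_max_left _ _))) (h2.trans ?_)
        exact mul_le_mul_of_nonneg_left (le_max_right _ _) (by positivity)
    _ = _ := by ring

end Vale.Agent.P155.D4
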