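import Mathlib

/-!
# P155, block D4, part 1: the finite dimensional inequality

`vv k a c z = a * κ_k(z₀-z₂, z₁-z₃) + P_c(z)` with `κ` one of `x/r²`, `y/r²` and `P_c` a polynomial of
box degree `≤ J` in four variables.  Products of two such functions, normalised by the size of their
coefficients, are bounded below (with constant sign) on one of finitely many boxes.
-/

namespace Vale.Agent.P155.D4

open Finset

/-- the two kernels `x/(x²+y²)` and `y/(x²+y²)` -/
noncomputable def kap (k : Bool) (x y : ℝ) : ℝ := (if k then y else x) / (x ^ 2 + y ^ 2)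

/-- coefficient arrays -/
abbrev Cf (J : ℕ) := (Fin 4 → Fin (J + 1)) → ℝ

variable {J : ℕ}

/-- polynomials of box degree `≤ J` in four variables -/
noncomputable def Pc (c : Cf J) (z : Fin 4 → ℝ) : ℝ := ∑ α, c α * ∏ i, z i ^ (α i : ℕ)

/-- the functions of the finite dimensional space -/
noncomputable def vv (k : Bool) (a : ℝ) (c : Cf J) (z : Fin 4 → ℝ) : ℝ :=
  a * kap k (z 0 - z 2) (z 1 - z 3) + Pc c z

theorem Pc_smul (s : ℝ) (c : Cf J) (z : Fin 4 → ℝ) : Pc (s • c) z = s * Pc c z := by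
  unfold Pc
  rw [mul_sum]
  refine sum_congr rfl fun α _ => ?_
  simp [mul_assoc]

theorem vv_smul (k : Bool) (s a : ℝ) (c : Cf J) (z : Fin 4 → ℝ) :
    vv k (s * a) (s • c) z = s * vv k a c z := by
  unfold vv
  rw [Pc_smul]
  ring

theorem continuous_Pc : Continuous fun y : Cf J × (Fin 4 → ℝ) => Pc y.1 y.2 := by
  unfold Pc
  fun_prop

theorem abs_Pc_le (c : Cf J) {z : Fin 4 → ℝ} (hz : ∀ i, |z i| ≤ 1) :
    |Pc c z| ≤ ((J : ℝ) + 1) ^ 4 * ‖c‖ := by
  unfold Pc
  calc |∑ α, c α * ∏ i, z i ^ (α i : ℕ)| ≤ ∑ α, |c α * ∏ i, z i ^ (α i : ℕ)| :=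
        abs_sum_le_sum_abs _ _
    _ ≤ ∑ _α : Fin 4 → Fin (J + 1), ‖c‖ := by
        refine sum_le_sum fun α _ => ?_
        rw [abs_mul]
        have h1 : |c α| ≤ ‖c‖ := norm_le_pi_norm c α
        have h2 : |∏ i, z i ^ (α i : ℕ)| ≤ 1 := by
          rw [abs_prod]
          refine prod_le_one (fun _ _ => abs_nonneg _) fun i _ => ?_
          rw [abs_pow]
          exact pow_le_one₀ (abs_nonneg _) (hz i)
        calc |c α| * |∏ i, z i ^ (α i : ℕ)| ≤ ‖c‖ * 1 :=
              mul_le_mul h1 h2 (abs_nonneg _) (norm_nonneg _)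
          _ = ‖c‖ := mul_one _
    _ = ((J : ℝ) + 1) ^ 4 * ‖c‖ := by
        rw [sum_const, card_univ, Fintype.card_fun, Fintype.card_fin, Fintype.card_fin, nsmul_eq_mul]
        push_cast
        ring

/-! ### the polynomials -/

/-- the exponent of a multi-index -/
noncomputable def ex (α : Fin 4 → Fin (J + 1)) : Fin 4 →₀ ℕ := Finsupp.equivFunOnFinite.symm fun i => (α i : ℕ)

theorem ex_injective : Function.Injective (ex (J := J)) := by
  intro α β h
  funext i
  have := DFunLike.congr_fun h i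
  simpa [ex, Fin.ext_iff] using this

/-- the polynomial with given coefficients -/
noncomputable def pol (c : Cf J) : MvPolynomial (Fin 4) ℝ := ∑ α, MvPolynomial.monomial (ex α) (c α)

theorem eval_pol (c : Cf J) (z : Fin 4 → ℝ) : MvPolynomial.eval z (pol c) = Pc c z := by
  unfold pol Pc
  rw [map_sum]
  refine sum_congr rfl fun α _ => ?_
  rw [MvPolynomial.eval_monomial, Finsupp.prod_fintype _ _ (fun i => pow_zero _)]
  rfl

theorem coeff_pol (c : Cf J) (α : Fin 4 → Fin (J + 1)) :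
    MvPolynomial.coeff (ex α) (pol c) = c α := by
  classical
  unfold pol
  rw [MvPolynomial.coeff_sum, sum_eq_single α]
  · simp
  · intro β _ hβ
    rw [MvPolynomial.coeff_monomial, if_neg]
    intro h
    exact hβ (ex_injective h)
  · intro h; exact absurd (mem_univ α) h

theorem pol_ne_zero {c : Cf J} (h : c ≠ 0) : pol c ≠ 0 := by
  intro h0
  apply h
  funext α
  rw [← coeff_pol c α, h0]
  simp

/-- `r² v` as a polynomial -/
noncomputable def polA (k : Bool) (a : ℝ) (c : Cf J) : MvPolynomial (Fin 4) ℝ :=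
  MvPolynomial.C a * (if k then MvPolynomial.X 1 - MvPolynomial.X 3
    else MvPolynomial.X 0 - MvPolynomial.X 2) +
  pol c * ((MvPolynomial.X 0 - MvPolynomial.X 2) ^ 2 + (MvPolynomial.X 1 - MvPolynomial.X 3) ^ 2)

theorem eval_polA (k : Bool) (a : ℝ) (c : Cf J) (z : Fin 4 → ℝ) :
    MvPolynomial.eval z (polA k a c) = a * (if k then z 1 - z 3 else z 0 - z 2) +
      Pc c z * ((z 0 - z 2) ^ 2 + (z 1 - z 3) ^ 2) := by
  unfold polA
  rw [map_add, map_mul, map_mul, eval_pol]
  cases k <;> simp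

theorem polA_ne_zero (k : Bool) {a : ℝ} {c : Cf J} (h : (a, c) ≠ 0) : polA k a c ≠ 0 := by
  intro h0
  have he : ∀ z : Fin 4 → ℝ, a * (if k then z 1 - z 3 else z 0 - z 2) +
      Pc c z * ((z 0 - z 2) ^ 2 + (z 1 - z 3) ^ 2) = 0 := by
    intro z
    rw [← eval_polA, h0, map_zero]
  -- the path
  have ha : a = 0 := by
    let γ : ℝ → (Fin 4 → ℝ) := fun s => if k then ![0, s, 0, 0] else ![s, 0, 0, 0]
    have hγ : Continuous γ := by
      unfold γ
      cases k <;> simp <;> fun_prop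
    have h1 : ∀ s : ℝ, s ≠ 0 → a + s * Pc c (γ s) = 0 := by
      intro s hs
      have := he (γ s)
      have h2 : s * (a + s * Pc c (γ s)) = 0 := by
        rw [← this]
        unfold γ
        cases k <;> simp <;> ring
      rcases mul_eq_zero.1 h2 with h3 | h3
      · exact absurd h3 hs
      · exact h3
    have hcont : Continuous fun s : ℝ => a + s * Pc c (γ s) := by
      have : Continuous fun s : ℝ => Pc c (γ s) :=
        continuous_Pc.comp (continuous_const.prodMk hγ)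
      fun_prop
    have hd : Dense {s : ℝ | s ≠ 0} := dense_compl_singleton 0
    have hz : (fun s : ℝ => a + s * Pc c (γ s)) = fun _ => 0 :=
      hcont.ext_on hd continuous_const (fun s hs => h1 s hs)
    have := congrFun hz 0
    simpa using this
  have hc : c ≠ 0 := by
    intro hc
    apply h
    rw [ha, hc]
    rfl
  subst ha
  have h2 : pol c * ((MvPolynomial.X 0 - MvPolynomial.X 2) ^ 2 +
      (MvPolynomial.X 1 - MvPolynomial.X 3) ^ 2) = 0 := by
    have := h0
    unfold polA at this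
    simpa using this
  rcases mul_eq_zero.1 h2 with h3 | h3
  · exact pol_ne_zero hc h3
  · have := congrArg (MvPolynomial.eval (![1, 0, 0, 0] : Fin 4 → ℝ)) h3
    simp at this

/-- the region in which all boxes are chosen -/
def reg : Set (Fin 4 → ℝ) :=
  Set.pi Set.univ (![Set.Ioo (1 / 2) (3 / 4), Set.Ioo (-1 / 4) (1 / 4), Set.Ioo (-3 / 4) (-1 / 2),
    Set.Ioo (-1 / 4) (1 / 4)] : Fin 4 → Set ℝ)

theorem mem_reg {z : Fin 4 → ℝ} : z ∈ reg ↔ (1 / 2 < z 0 ∧ z 0 < 3 / 4) ∧
    (-1 / 4 < z 1 ∧ z 1 < 1 / 4) ∧ (-3 / 4 < z 2 ∧ z 2 < -1 / 2) ∧ (-1 / 4 < z 3 ∧ z 3 < 1 / 4) := by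
  unfold reg
  rw [Set.mem_univ_pi, Fin.forall_fin_succ, Fin.forall_fin_succ, Fin.forall_fin_succ,
    Fin.forall_fin_succ]
  simp

theorem isOpen_reg : IsOpen reg := by
  unfold reg
  refine isOpen_set_pi Set.finite_univ fun i _ => ?_
  fin_cases i <;> exact isOpen_Ioo

theorem rsq_ge {z : Fin 4 → ℝ} (hz : z ∈ reg) : 1 ≤ (z 0 - z 2) ^ 2 + (z 1 - z 3) ^ 2 := by
  obtain ⟨⟨h1, h2⟩, h3, ⟨h4, h5⟩, h6⟩ := mem_reg.1 hz
  nlinarith [sq_nonneg (z 1 - z 3)]

theorem vv_eq {k : Bool} {a : ℝ} {c : Cf J} {z : Fin 4 → ℝ} (hz : z ∈ reg) :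
    MvPolynomial.eval z (polA k a c) = vv k a c z * ((z 0 - z 2) ^ 2 + (z 1 - z 3) ^ 2) := by
  have h := rsq_ge hz
  have h0 : (z 0 - z 2) ^ 2 + (z 1 - z 3) ^ 2 ≠ 0 := by linarith
  rw [eval_polA]
  unfold vv kap
  field_simp

/-- no zero divisors -/
theorem exists_ne (k k' : Bool) {a a' : ℝ} {c c' : Cf J} (h : (a, c) ≠ 0) (h' : (a', c') ≠ 0) :
    ∃ z ∈ reg, vv k a c z * vv k' a' c' z ≠ 0 := by
  by_contra hcon
  push Not at hcon
  have hA : polA k a c * polA k' a' c' = 0 := by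
    apply MvPolynomial.funext_set (![Set.Ioo (1 / 2) (3 / 4), Set.Ioo (-1 / 4) (1 / 4),
      Set.Ioo (-3 / 4) (-1 / 2), Set.Ioo (-1 / 4) (1 / 4)] : Fin 4 → Set ℝ)
    · intro i
      fin_cases i <;> (simp only []; exact Set.Ioo_infinite (by norm_num))
    · intro z hz
      have hz' : z ∈ reg := hz
      rw [map_mul, vv_eq hz', vv_eq hz', map_zero]
      have := hcon z hz'
      linear_combination ((z 0 - z 2) ^ 2 + (z 1 - z 3) ^ 2) ^ 2 * this
  rcases mul_eq_zero.1 hA with h1 | h1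
  · exact polA_ne_zero k h h1
  · exact polA_ne_zero k' h' h1

end Vale.Agent.P155.D4
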