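import Vale.Agent.P155.Defs
import Vale.Agent.P155.D4.Cpt
import Mathlib

/-!
# P155, block D4, part 3: the discrete statement
-/

namespace Vale.Agent.P155.D4

open Finset Metric

variable {J : ℕ}

/-- rescaled coordinates of a pair of lattice points -/
noncomputable def sc4 (x : Pt) (t : ℝ) (p q : Pt) : Fin 4 → ℝ :=
  ![((p.1 : ℝ) - x.1) / t, ((p.2 : ℝ) - x.2) / t, ((q.1 : ℝ) - x.1) / t, ((q.2 : ℝ) - x.2) / t]

/-- lattice points of the residue class of `r` modulo `2` in the box `x + t ([u-ρ,u+ρ] × [v-ρ,v+ρ])` -/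
noncomputable def lat (x : Pt) (t u v ρ : ℝ) (r : Pt) : Finset Pt :=
  (Finset.Icc ⌈(x.1 : ℝ) + t * (u - ρ)⌉ ⌊(x.1 : ℝ) + t * (u + ρ)⌋ ×ˢ
    Finset.Icc ⌈(x.2 : ℝ) + t * (v - ρ)⌉ ⌊(x.2 : ℝ) + t * (v + ρ)⌋).filter
    (fun p => Even (p.1 - r.1) ∧ Even (p.2 - r.2))

theorem mem_lat {x : Pt} {t u v ρ : ℝ} (ht : 0 < t) {r p : Pt} :
    p ∈ lat x t u v ρ r ↔ (|((p.1 : ℝ) - x.1) / t - u| ≤ ρ ∧ |((p.2 : ℝ) - x.2) / t - v| ≤ ρ) ∧
      (Even (p.1 - r.1) ∧ Even (p.2 - r.2)) := by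
  have h1 : ∀ (n m : ℤ) (w : ℝ), (⌈(m : ℝ) + t * (w - ρ)⌉ ≤ n ∧ n ≤ ⌊(m : ℝ) + t * (w + ρ)⌋) ↔
      |((n : ℝ) - m) / t - w| ≤ ρ := by
    intro n m w
    rw [Int.ceil_le, Int.le_floor, abs_le, neg_le_sub_iff_le_add, sub_le_iff_le_add,
      div_le_iff₀ ht]
    constructor
    · rintro ⟨h1, h2⟩
      refine ⟨?_, by nlinarith⟩
      rw [← sub_le_iff_le_add, le_div_iff₀ ht]
      nlinarith
    · rintro ⟨h1, h2⟩
      rw [← sub_le_iff_le_add, le_div_iff₀ ht] at h1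
      exact ⟨by nlinarith, by nlinarith⟩
  unfold lat
  rw [Finset.mem_filter, Finset.mem_product, Finset.mem_Icc, Finset.mem_Icc, h1, h1]

/-- counting integers of one parity in an interval -/
theorem card_parity (α β : ℝ) (r : ℤ) :
    (β - α) / 2 - 1 ≤ (((Finset.Icc ⌈α⌉ ⌊β⌋).filter (fun n => Even (n - r))).card : ℝ) := by
  classical
  have h1 : ((Finset.Icc ⌈(α - r) / 2⌉ ⌊(β - r) / 2⌋).image (fun j => r + 2 * j)) ⊆
      (Finset.Icc ⌈α⌉ ⌊β⌋).filter (fun n => Even (n - r)) := by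
    intro n hn
    obtain ⟨j, hj, rfl⟩ := Finset.mem_image.1 hn
    rw [Finset.mem_Icc, Int.ceil_le, Int.le_floor] at hj
    rw [Finset.mem_filter, Finset.mem_Icc, Int.ceil_le, Int.le_floor]
    refine ⟨⟨?_, ?_⟩, ⟨j, by ring⟩⟩
    · push_cast; linarith [hj.1]
    · push_cast; linarith [hj.2]
  have h2 := Finset.card_le_card h1
  rw [Finset.card_image_of_injective _ (by intro a b h; simpa using h), Int.card_Icc] at h2
  have h3 : (⌊(β - r) / 2⌋ + 1 - ⌈(α - r) / 2⌉ : ℤ) ≤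
      (((Finset.Icc ⌈α⌉ ⌊β⌋).filter (fun n => Even (n - r))).card : ℤ) :=
    (Int.self_le_toNat _).trans (by exact_mod_cast h2)
  have h4 : ((⌊(β - r) / 2⌋ : ℝ) + 1 - ⌈(α - r) / 2⌉) ≤
      (((Finset.Icc ⌈α⌉ ⌊β⌋).filter (fun n => Even (n - r))).card : ℝ) := by
    exact_mod_cast h3
  have h5 := Int.lt_floor_add_one ((β - r) / 2)
  have h6 := Int.ceil_lt_add_one ((α - r) / 2)
  linarith

theorem card_lat (x : Pt) {t u v ρ : ℝ} (h : 2 ≤ t * ρ) (r : Pt) :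
    (t * ρ / 2) ^ 2 ≤ ((lat x t u v ρ r).card : ℝ) := by
  have he : lat x t u v ρ r =
      ((Finset.Icc ⌈(x.1 : ℝ) + t * (u - ρ)⌉ ⌊(x.1 : ℝ) + t * (u + ρ)⌋).filter
        (fun n => Even (n - r.1))) ×ˢ
      ((Finset.Icc ⌈(x.2 : ℝ) + t * (v - ρ)⌉ ⌊(x.2 : ℝ) + t * (v + ρ)⌋).filter
        (fun n => Even (n - r.2))) := by
    ext p
    simp only [lat, Finset.mem_filter, Finset.mem_product]
    tauto
  rw [he, Finset.card_product]
  push_cast
  have h1 := card_parity ((x.1 : ℝ) + t * (u - ρ)) ((x.1 : ℝ) + t * (u + ρ)) r.1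
  have h2 := card_parity ((x.2 : ℝ) + t * (v - ρ)) ((x.2 : ℝ) + t * (v + ρ)) r.2
  have h3 : t * ρ / 2 ≤ (((Finset.Icc ⌈(x.1 : ℝ) + t * (u - ρ)⌉ ⌊(x.1 : ℝ) + t * (u + ρ)⌋).filter
        (fun n => Even (n - r.1))).card : ℝ) := by linarith
  have h4 : t * ρ / 2 ≤ (((Finset.Icc ⌈(x.2 : ℝ) + t * (v - ρ)⌉ ⌊(x.2 : ℝ) + t * (v + ρ)⌋).filter
        (fun n => Even (n - r.2))).card : ℝ) := by linarith
  rw [pow_two]
  exact mul_le_mul h3 h4 (by linarith) (Nat.cast_nonneg _)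

theorem sc4_mem {x : Pt} {t : ℝ} (ht : 0 < t) {b : Bx} {r r' p q : Pt}
    (hp : p ∈ lat x t (b.u 0) (b.u 1) b.ρ r) (hq : q ∈ lat x t (b.u 2) (b.u 3) b.ρ r') :
    sc4 x t p q ∈ closedBall b.u b.ρ := by
  rw [mem_lat ht] at hp hq
  rw [mem_closedBall, dist_pi_le_iff b.pos.le, Fin.forall_fin_succ, Fin.forall_fin_succ,
    Fin.forall_fin_succ, Fin.forall_fin_succ]
  refine ⟨?_, ?_, ?_, ?_, fun i => i.elim0⟩
  · rw [Real.dist_eq]; exact hp.1.1
  · rw [Real.dist_eq]; exact hp.1.2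
  · rw [Real.dist_eq]; exact hq.1.1
  · rw [Real.dist_eq]; exact hq.1.2

theorem exists_min (S : List Bx) : ∃ ρ0 : ℝ, 0 < ρ0 ∧ ∀ b ∈ S, ρ0 ≤ b.ρ := by
  induction S with
  | nil => exact ⟨1, one_pos, fun b hb => absurd hb List.not_mem_nil⟩
  | cons b S ih =>
    obtain ⟨ρ0, h0, h⟩ := ih
    refine ⟨min ρ0 b.ρ, lt_min h0 b.pos, fun b' hb' => ?_⟩
    rcases List.mem_cons.1 hb' with rfl | hb'
    · exact min_le_right _ _
    · exact (min_le_left _ _).trans (h b' hb')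

/-- **Block D4.** If two functions `f`, `g` on pairs of lattice points are, after multiplication by `t`,
close to elements `vv k a c`, `vv k' a' c'` of the finite dimensional spaces, and the sums of the
product `f g` over the finitely many box pairs are at most `B t²`, then all coefficients of the
polynomial parts are at most `C B`. -/
theorem main (J : ℕ) (k k' : Bool) {a0 : ℝ} (ha0 : 0 < a0) :
    ∃ (S : List Bx) (C t0 η : ℝ), 0 < C ∧ 1 ≤ t0 ∧ 0 < η ∧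
      ∀ (t : ℝ) (_ : t0 ≤ t) (x : Pt) (a a' : ℝ) (c c' : Cf J) (f g : Pt → Pt → ℝ) (r r' : Pt)
        (B : ℝ) (_ : a0 ≤ |a|) (_ : a0 ≤ |a'|)
        (_ : ∀ b ∈ S, ∀ p ∈ lat x t (b.u 0) (b.u 1) b.ρ r, ∀ q ∈ lat x t (b.u 2) (b.u 3) b.ρ r',
          |t * f p q - vv k a c (sc4 x t p q)| ≤ η * max 1 ‖c‖)
        (_ : ∀ b ∈ S, ∀ p ∈ lat x t (b.u 0) (b.u 1) b.ρ r, ∀ q ∈ lat x t (b.u 2) (b.u 3) b.ρ r',
          |t * g p q - vv k' a' c' (sc4 x t p q)| ≤ η * max 1 ‖c'‖)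
        (_ : ∀ b ∈ S, |∑ p ∈ lat x t (b.u 0) (b.u 1) b.ρ r, ∑ q ∈ lat x t (b.u 2) (b.u 3) b.ρ r',
          f p q * g p q| ≤ B * t ^ 2),
        ‖c‖ ≤ C * B ∧ ‖c'‖ ≤ C * B := by
  obtain ⟨S, ε, hε, hS⟩ := exists_boxes J k k'
  obtain ⟨ρ0, hρ0, hmin⟩ := exists_min S
  set C1 : ℝ := 1 + ((J : ℝ) + 1) ^ 4 with hC1
  have hC1pos : 0 < C1 := by positivity
  set M0 : ℝ := 1 / a0 + 1 with hM0
  have hM0pos : 0 < M0 := by positivity
  set D : ℝ := 2 * C1 * M0 + M0 ^ 2 with hD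
  have hDpos : 0 < D := by positivity
  set η : ℝ := min 1 (ε / (2 * D)) with hη
  have hηpos : 0 < η := lt_min one_pos (by positivity)
  have hη1 : η ≤ 1 := min_le_left _ _
  have hηD : η * D ≤ ε / 2 := by
    have : η ≤ ε / (2 * D) := min_le_right _ _
    calc η * D ≤ ε / (2 * D) * D := mul_le_mul_of_nonneg_right this hDpos.le
      _ = ε / 2 := by field_simp
  refine ⟨S, 32 / (ε * ρ0 ^ 4 * a0), max 1 (2 / ρ0), η, by positivity, le_max_left _ _, hηpos, ?_⟩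
  intro t ht x a a' c c' f g r r' B ha ha' hf hg hB
  have ht1 : 1 ≤ t := (le_max_left _ _).trans ht
  have ht0 : 0 < t := by linarith
  have htρ : 2 / ρ0 ≤ t := (le_max_right _ _).trans ht
  set N := nn a c with hN
  set N' := nn a' c' with hN'
  have hNa : a0 ≤ N := ha.trans (le_max_left _ _)
  have hNa' : a0 ≤ N' := ha'.trans (le_max_left _ _)
  have hNpos : 0 < N := by linarith
  have hNpos' : 0 < N' := by linarith
  have hmax : max 1 ‖c‖ ≤ M0 * N := by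
    have h1 : 1 ≤ 1 / a0 * N := by
      rw [one_div, inv_mul_eq_div, le_div_iff₀ ha0]; linarith
    have h2 : ‖c‖ ≤ N := le_max_right _ _
    rw [hM0, add_mul, one_mul]
    refine max_le (by linarith) (by linarith)
  have hmax' : max 1 ‖c'‖ ≤ M0 * N' := by
    have h1 : 1 ≤ 1 / a0 * N' := by
      rw [one_div, inv_mul_eq_div, le_div_iff₀ ha0]; linarith
    have h2 : ‖c'‖ ≤ N' := le_max_right _ _
    rw [hM0, add_mul, one_mul]
    refine max_le (by linarith) (by linarith)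
  obtain ⟨b, hb, σ, hσ, hz⟩ := hS a a' c c' hNpos.ne' hNpos'.ne'
  have hσ1 : |σ| = 1 := by rcases hσ with rfl | rfl <;> simp
  -- lower bound for each term
  have hterm : ∀ p ∈ lat x t (b.u 0) (b.u 1) b.ρ r, ∀ q ∈ lat x t (b.u 2) (b.u 3) b.ρ r',
      ε / 2 * (N * N') / t ^ 2 ≤ σ * (f p q * g p q) := by
    intro p hp q hq
    have hzb := sc4_mem ht0 hp hq
    have h1 := hf b hb p hp q hq
    have h2 := hg b hb p hp q hq
    have h3 := hz _ hzb
    have h4 : |vv k a c (sc4 x t p q)| ≤ C1 * N := abs_vv_le (b.sub hzb)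
    have h5 : |vv k' a' c' (sc4 x t p q)| ≤ C1 * N' := abs_vv_le (b.sub hzb)
    set v := vv k a c (sc4 x t p q)
    set v' := vv k' a' c' (sc4 x t p q)
    have h1' : |t * f p q - v| ≤ η * (M0 * N) := h1.trans (mul_le_mul_of_nonneg_left hmax hηpos.le)
    have h2' : |t * g p q - v'| ≤ η * (M0 * N') :=
      h2.trans (mul_le_mul_of_nonneg_left hmax' hηpos.le)
    have hdiff : |(t * f p q) * (t * g p q) - v * v'| ≤ η * D * (N * N') := by
      have e1 : (t * f p q) * (t * g p q) - v * v' =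
          v * (t * g p q - v') + v' * (t * f p q - v) + (t * f p q - v) * (t * g p q - v') := by
        ring
      rw [e1]
      have a1 : |v * (t * g p q - v')| ≤ C1 * N * (η * (M0 * N')) := by
        rw [abs_mul]; exact mul_le_mul h4 h2' (abs_nonneg _) (by positivity)
      have a2 : |v' * (t * f p q - v)| ≤ C1 * N' * (η * (M0 * N)) := by
        rw [abs_mul]; exact mul_le_mul h5 h1' (abs_nonneg _) (by positivity)
      have a3 : |(t * f p q - v) * (t * g p q - v')| ≤ η * (M0 * N) * (η * (M0 * N')) := by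
        rw [abs_mul]; exact mul_le_mul h1' h2' (abs_nonneg _) (by positivity)
      have a4 : η * (M0 * N) * (η * (M0 * N')) ≤ η * (M0 ^ 2 * (N * N')) := by
        have : η * (M0 * N) * (η * (M0 * N')) = η * (η * (M0 ^ 2 * (N * N'))) := by ring
        rw [this]
        exact mul_le_mul_of_nonneg_left
          (mul_le_of_le_one_left (by positivity) hη1) hηpos.le
      calc _ ≤ |v * (t * g p q - v')| + |v' * (t * f p q - v)| +
            |(t * f p q - v) * (t * g p q - v')| := abs_add_three _ _ _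
        _ ≤ C1 * N * (η * (M0 * N')) + C1 * N' * (η * (M0 * N)) + η * (M0 ^ 2 * (N * N')) := by
            linarith
        _ = η * D * (N * N') := by rw [hD]; ring
    have hdiff' : |σ * ((t * f p q) * (t * g p q) - v * v')| ≤ η * D * (N * N') := by
      rw [abs_mul, hσ1, one_mul]; exact hdiff
    have h6 : η * D * (N * N') ≤ ε / 2 * (N * N') :=
      mul_le_mul_of_nonneg_right hηD (by positivity)
    have h7 := (abs_le.1 hdiff').1
    have h8 : ε / 2 * (N * N') ≤ σ * (f p q * g p q) * t ^ 2 := by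
      have : σ * (f p q * g p q) * t ^ 2 = σ * (v * v') + σ * ((t * f p q) * (t * g p q) - v * v') := by
        ring
      rw [this]
      nlinarith
    rwa [div_le_iff₀ (by positivity)]
  -- sum
  have hρb : ρ0 ≤ b.ρ := hmin b hb
  have h2t : 2 ≤ t * b.ρ := by
    rw [div_le_iff₀ hρ0] at htρ
    calc (2 : ℝ) ≤ t * ρ0 := htρ
      _ ≤ t * b.ρ := mul_le_mul_of_nonneg_left hρb ht0.le
  have hc1 := card_lat x (u := b.u 0) (v := b.u 1) h2t r
  have hc2 := card_lat x (u := b.u 2) (v := b.u 3) h2t r'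
  have hT : 0 ≤ ε / 2 * (N * N') / t ^ 2 := by positivity
  have hsum : ((lat x t (b.u 0) (b.u 1) b.ρ r).card : ℝ) *
      (((lat x t (b.u 2) (b.u 3) b.ρ r').card : ℝ) * (ε / 2 * (N * N') / t ^ 2)) ≤ B * t ^ 2 := by
    calc _ ≤ ∑ p ∈ lat x t (b.u 0) (b.u 1) b.ρ r, ∑ q ∈ lat x t (b.u 2) (b.u 3) b.ρ r',
          σ * (f p q * g p q) := by
          rw [← nsmul_eq_mul, ← nsmul_eq_mul]
          refine Finset.card_nsmul_le_sum _ _ _ fun p hp => ?_
          exact Finset.card_nsmul_le_sum _ _ _ fun q hq => hterm p hp q hq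
      _ = σ * ∑ p ∈ lat x t (b.u 0) (b.u 1) b.ρ r, ∑ q ∈ lat x t (b.u 2) (b.u 3) b.ρ r',
          f p q * g p q := by
          rw [Finset.mul_sum]
          exact Finset.sum_congr rfl fun p _ => by rw [Finset.mul_sum]
      _ ≤ |σ * ∑ p ∈ lat x t (b.u 0) (b.u 1) b.ρ r, ∑ q ∈ lat x t (b.u 2) (b.u 3) b.ρ r',
          f p q * g p q| := le_abs_self _
      _ ≤ B * t ^ 2 := by rw [abs_mul, hσ1, one_mul]; exact hB b hb
  have hlow : (t * ρ0 / 2) ^ 2 * ((t * ρ0 / 2) ^ 2 * (ε / 2 * (N * N') / t ^ 2)) ≤ B * t ^ 2 := by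
    refine le_trans ?_ hsum
    have hq : (t * ρ0 / 2) ^ 2 ≤ (t * b.ρ / 2) ^ 2 := by
      apply pow_le_pow_left₀ (by positivity)
      have := mul_le_mul_of_nonneg_left hρb ht0.le
      linarith
    refine mul_le_mul (hq.trans hc1) (mul_le_mul_of_nonneg_right (hq.trans hc2) hT) (by positivity)
      (Nat.cast_nonneg _)
  have hlow' : ε * ρ0 ^ 4 / 32 * (N * N') ≤ B := by
    have e : (t * ρ0 / 2) ^ 2 * ((t * ρ0 / 2) ^ 2 * (ε / 2 * (N * N') / t ^ 2)) =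
        (ε * ρ0 ^ 4 / 32 * (N * N')) * t ^ 2 := by
      field_simp
      ring
    rw [e] at hlow
    exact le_of_mul_le_mul_right hlow (by positivity)
  have hfin : ∀ X Y : ℝ, 0 < X → a0 ≤ Y → ε * ρ0 ^ 4 / 32 * (X * Y) ≤ B →
      X ≤ 32 / (ε * ρ0 ^ 4 * a0) * B := by
    intro X Y hX hY h
    have h1 : ε * ρ0 ^ 4 / 32 * (X * a0) ≤ B :=
      (mul_le_mul_of_nonneg_left (mul_le_mul_of_nonneg_left hY hX.le) (by positivity)).trans h
    have h2 : X = 32 / (ε * ρ0 ^ 4 * a0) * (ε * ρ0 ^ 4 / 32 * (X * a0)) := by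
      field_simp
    calc X = 32 / (ε * ρ0 ^ 4 * a0) * (ε * ρ0 ^ 4 / 32 * (X * a0)) := h2
      _ ≤ _ := mul_le_mul_of_nonneg_left h1 (by positivity)
  refine ⟨(le_max_right _ _).trans (hfin N N' hNpos hNa' hlow'),
    (le_max_right _ _).trans (hfin N' N hNpos' hNa (by rw [mul_comm N' N]; exact hlow'))⟩

end Vale.Agent.P155.D4
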