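import Vale.Agent.P155.Defs2
import Vale.Agent.P155.D4.Main

/-!
# P155, block D4, part 4: shifts, kernel asymptotics and the exchange of the two variables
-/

namespace Vale.Agent.P155.D4

open Finset Metric

variable {J : ℕ}

/-! ### shifts in the polynomial part -/

theorem pow_sub_le {a b δ : ℝ} (hb : |b| ≤ 1) (h : |a - b| ≤ δ) (hδ : δ ≤ 1) :
    ∀ n : ℕ, |a ^ n| ≤ 2 ^ n ∧ |a ^ n - b ^ n| ≤ n * 2 ^ n * δ := by
  have hδ0 : 0 ≤ δ := (abs_nonneg _).trans h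
  have ha : |a| ≤ 2 := by
    have : a = b + (a - b) := by ring
    rw [this]
    exact (abs_add_le _ _).trans (by linarith)
  intro n
  induction n with
  | zero => simp
  | succ n ih =>
    obtain ⟨h1, h2⟩ := ih
    constructor
    · rw [pow_succ, abs_mul, pow_succ]
      exact mul_le_mul h1 ha (abs_nonneg _) (by positivity)
    · have e : a ^ (n + 1) - b ^ (n + 1) = a ^ n * (a - b) + b * (a ^ n - b ^ n) := by ring
      rw [e]
      have h3 : |a ^ n * (a - b)| ≤ 2 ^ n * δ := by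
        rw [abs_mul]; exact mul_le_mul h1 h (abs_nonneg _) (by positivity)
      have h4 : |b * (a ^ n - b ^ n)| ≤ 1 * (n * 2 ^ n * δ) := by
        rw [abs_mul]; exact mul_le_mul hb h2 (abs_nonneg _) (by positivity)
      refine (abs_add_le _ _).trans ((add_le_add h3 h4).trans ?_)
      push_cast
      have h5 : (0 : ℝ) ≤ 2 ^ n * δ := by positivity
      have h6 : (0 : ℝ) ≤ (n : ℝ) * (2 ^ n * δ) := by positivity
      have e2 : ((n : ℝ) + 1) * 2 ^ (n + 1) * δ = 2 * ((n : ℝ) * (2 ^ n * δ)) + 2 * (2 ^ n * δ) := by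
        rw [pow_succ]; ring
      rw [e2]
      linarith

theorem prod4_sub_le {a b : Fin 4 → ℝ} {M D : ℝ} (hM : 1 ≤ M) (ha : ∀ i, |a i| ≤ M)
    (hb : ∀ i, |b i| ≤ 1) (h : ∀ i, |a i - b i| ≤ D) :
    |∏ i, a i - ∏ i, b i| ≤ 4 * M ^ 3 * D := by
  have hD : 0 ≤ D := (abs_nonneg _).trans (h 0)
  have hM0 : 0 ≤ M := by linarith
  rw [Fin.prod_univ_four, Fin.prod_univ_four]
  have e : a 0 * a 1 * a 2 * a 3 - b 0 * b 1 * b 2 * b 3 =
      (a 0 - b 0) * a 1 * a 2 * a 3 + b 0 * (a 1 - b 1) * a 2 * a 3 +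
      b 0 * b 1 * (a 2 - b 2) * a 3 + b 0 * b 1 * b 2 * (a 3 - b 3) := by ring
  rw [e]
  have t1 : |(a 0 - b 0) * a 1 * a 2 * a 3| ≤ D * M * M * M := by
    rw [abs_mul, abs_mul, abs_mul]
    exact mul_le_mul (mul_le_mul (mul_le_mul (h 0) (ha 1) (abs_nonneg _) hD) (ha 2) (abs_nonneg _)
      (by positivity)) (ha 3) (abs_nonneg _) (by positivity)
  have t2 : |b 0 * (a 1 - b 1) * a 2 * a 3| ≤ 1 * D * M * M := by
    rw [abs_mul, abs_mul, abs_mul]
    exact mul_le_mul (mul_le_mul (mul_le_mul (hb 0) (h 1) (abs_nonneg _) zero_le_one) (ha 2)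
      (abs_nonneg _) (by positivity)) (ha 3) (abs_nonneg _) (by positivity)
  have t3 : |b 0 * b 1 * (a 2 - b 2) * a 3| ≤ 1 * 1 * D * M := by
    rw [abs_mul, abs_mul, abs_mul]
    exact mul_le_mul (mul_le_mul (mul_le_mul (hb 0) (hb 1) (abs_nonneg _) zero_le_one) (h 2)
      (abs_nonneg _) (by positivity)) (ha 3) (abs_nonneg _) (by positivity)
  have t4 : |b 0 * b 1 * b 2 * (a 3 - b 3)| ≤ 1 * 1 * 1 * D := by
    rw [abs_mul, abs_mul, abs_mul]
    exact mul_le_mul (mul_le_mul (mul_le_mul (hb 0) (hb 1) (abs_nonneg _) zero_le_one) (hb 2)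
      (abs_nonneg _) (by positivity)) (h 3) (abs_nonneg _) (by positivity)
  have m2 : M ≤ M ^ 3 := by nlinarith [sq_nonneg (M - 1), mul_nonneg hM0 hM0]
  have m3 : M * M ≤ M ^ 3 := by nlinarith [sq_nonneg (M - 1), mul_nonneg hM0 hM0]
  have m4 : 1 ≤ M ^ 3 := by nlinarith [sq_nonneg (M - 1), mul_nonneg hM0 hM0]
  have n2 := mul_le_mul_of_nonneg_left m2 hD
  have n3 := mul_le_mul_of_nonneg_left m3 hD
  have n4 := mul_le_mul_of_nonneg_left m4 hD
  refine (abs_add_le _ _).trans ((add_le_add ((abs_add_three _ _ _).trans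
    (add_le_add (add_le_add t1 t2) t3)) t4).trans ?_)
  nlinarith

/-- the constant of the shift lemma -/
noncomputable def CS (J : ℕ) : ℝ := 4 * (2 ^ J) ^ 3 * (J * 2 ^ J) * ((J : ℝ) + 1) ^ 4

theorem CS_nonneg (J : ℕ) : 0 ≤ CS J := by unfold CS; positivity

/-- (1) shift lemma -/
theorem Pc_shift (c : Cf J) {z z' : Fin 4 → ℝ} {δ : ℝ} (hz : ∀ i, |z i| ≤ 1)
    (h : ∀ i, |z' i - z i| ≤ δ) (hδ : δ ≤ 1) : |Pc c z' - Pc c z| ≤ CS J * δ * ‖c‖ := by
  have hδ0 : 0 ≤ δ := (abs_nonneg _).trans (h 0)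
  unfold Pc
  rw [← sum_sub_distrib]
  have hterm : ∀ α : Fin 4 → Fin (J + 1),
      |c α * ∏ i, z' i ^ (α i : ℕ) - c α * ∏ i, z i ^ (α i : ℕ)| ≤
        ‖c‖ * (4 * (2 ^ J) ^ 3 * (J * 2 ^ J * δ)) := by
    intro α
    rw [← mul_sub, abs_mul]
    refine mul_le_mul (norm_le_pi_norm c α) ?_ (abs_nonneg _) (norm_nonneg _)
    have hle : ∀ i, ((α i : ℕ) : ℝ) ≤ J := fun i => by
      exact_mod_cast Nat.lt_succ_iff.1 (α i).2
    have hp : ∀ i, (2 : ℝ) ^ (α i : ℕ) ≤ 2 ^ J := fun i =>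
      pow_le_pow_right₀ one_le_two (Nat.lt_succ_iff.1 (α i).2)
    apply prod4_sub_le (M := 2 ^ J) (one_le_pow₀ one_le_two)
    · intro i
      exact ((pow_sub_le (hz i) (h i) hδ _).1).trans (hp i)
    · intro i
      rw [abs_pow]; exact pow_le_one₀ (abs_nonneg _) (hz i)
    · intro i
      refine ((pow_sub_le (hz i) (h i) hδ _).2).trans ?_
      exact mul_le_mul_of_nonneg_right (mul_le_mul (hle i) (hp i) (by positivity) (by positivity)) hδ0
  calc |∑ α, (c α * ∏ i, z' i ^ (α i : ℕ) - c α * ∏ i, z i ^ (α i : ℕ))|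
      ≤ ∑ α, |c α * ∏ i, z' i ^ (α i : ℕ) - c α * ∏ i, z i ^ (α i : ℕ)| := abs_sum_le_sum_abs _ _
    _ ≤ ∑ _α : Fin 4 → Fin (J + 1), ‖c‖ * (4 * (2 ^ J) ^ 3 * (J * 2 ^ J * δ)) :=
        sum_le_sum fun α _ => hterm α
    _ = CS J * δ * ‖c‖ := by
        rw [sum_const, card_univ, Fintype.card_fun, Fintype.card_fin, Fintype.card_fin, nsmul_eq_mul]
        unfold CS
        push_cast
        ring

/-! ### exchange of the two variables -/

/-- the exchange of the two points -/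
def tau : Fin 4 → Fin 4 := ![2, 3, 0, 1]

theorem tau_tau (i : Fin 4) : tau (tau i) = i := by fin_cases i <;> rfl

/-- `tau` as an equivalence -/
def tauE : Fin 4 ≃ Fin 4 := ⟨tau, tau, tau_tau, tau_tau⟩

/-- permuted coefficients -/
def perm (c : Cf J) : Cf J := fun α => c (fun i => α (tau i))

theorem perm_perm (c : Cf J) : perm (perm c) = c := by
  funext α
  show c (fun i => α (tau (tau i))) = c α
  simp_rw [tau_tau]

theorem norm_perm_le (c : Cf J) : ‖perm c‖ ≤ ‖c‖ :=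
  (pi_norm_le_iff_of_nonneg (norm_nonneg _)).2 fun _ => norm_le_pi_norm c _

theorem norm_perm (c : Cf J) : ‖perm c‖ = ‖c‖ := by
  refine le_antisymm (norm_perm_le c) ?_
  have := norm_perm_le (perm c)
  rwa [perm_perm] at this

/-- (3) exchange -/
theorem Pc_perm (c : Cf J) (z : Fin 4 → ℝ) : Pc c (fun i => z (tau i)) = Pc (perm c) z := by
  unfold Pc
  let e : (Fin 4 → Fin (J + 1)) ≃ (Fin 4 → Fin (J + 1)) :=
    ⟨fun α i => α (tau i), fun α i => α (tau i), fun α => by funext i; simp [tau_tau],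
      fun α => by funext i; simp [tau_tau]⟩
  rw [← Equiv.sum_comp e]
  refine sum_congr rfl fun α _ => ?_
  have h1 : ∏ i, z (tau i) ^ ((e α) i : ℕ) = ∏ i, z i ^ (α i : ℕ) := by
    rw [← Equiv.prod_comp tauE (fun i => z i ^ (α i : ℕ))]
    rfl
  rw [h1]
  rfl

theorem kap_neg (k : Bool) (x y : ℝ) : kap k (-x) (-y) = - kap k x y := by
  unfold kap
  cases k <;> simp [neg_div]

theorem vv_perm (k : Bool) (a : ℝ) (c : Cf J) (z : Fin 4 → ℝ) :
    vv k a c (fun i => z (tau i)) = vv k (-a) (perm c) z := by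
  unfold vv
  rw [Pc_perm]
  have : kap k (z (tau 0) - z (tau 2)) (z (tau 1) - z (tau 3)) =
      - kap k (z 0 - z 2) (z 1 - z 3) := by
    rw [← kap_neg]
    congr 1 <;> simp [tau]
  rw [this]
  ring

theorem sc4_swap (x : Pt) (t : ℝ) (p q : Pt) : sc4 x t q p = fun i => sc4 x t p q (tau i) := by
  funext i
  fin_cases i <;> rfl

/-! ### the kernel -/

theorem kap_scale (k : Bool) {t x y : ℝ} (ht : 0 < t) (h : 0 < x ^ 2 + y ^ 2) :
    kap k (x / t) (y / t) = t * ((if k then y else x) / (x ^ 2 + y ^ 2)) := by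
  unfold kap
  have h1 : (x / t) ^ 2 + (y / t) ^ 2 = (x ^ 2 + y ^ 2) / t ^ 2 := by
    field_simp
  rw [h1]
  cases k
  · simp only [Bool.false_eq_true, if_false]
    field_simp
  · simp only [if_true]
    field_simp

/-- shift in the leading kernel -/
theorem lead_shift (k : Bool) {x y d1 d2 t : ℝ} (ht : 2 ≤ t) (hx : t ≤ |x|) (h1 : |d1| ≤ 1)
    (h2 : |d2| ≤ 1) :
    |(if k then y + d2 else x + d1) / ((x + d1) ^ 2 + (y + d2) ^ 2) -
      (if k then y else x) / (x ^ 2 + y ^ 2)| ≤ 24 / t ^ 2 := by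
  set N := x ^ 2 + y ^ 2 with hN
  set N' := (x + d1) ^ 2 + (y + d2) ^ 2 with hN'
  set u : ℝ := if k then y else x with hu
  set u' : ℝ := if k then y + d2 else x + d1 with hu'
  have hxsq : t ^ 2 ≤ x ^ 2 := by
    rw [← sq_abs x]
    exact pow_le_pow_left₀ (by linarith) hx 2
  have hNt : t ^ 2 ≤ N := by rw [hN]; nlinarith [sq_nonneg y]
  have hNpos : 0 < N := by nlinarith
  have hxd : t / 2 ≤ |x + d1| := by
    have : |x| ≤ |x + d1| + |d1| := by
      have e : x = (x + d1) + (-d1) := by ring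
      calc |x| = |(x + d1) + (-d1)| := by rw [← e]
        _ ≤ |x + d1| + |-d1| := abs_add_le _ _
        _ = |x + d1| + |d1| := by rw [abs_neg]
    linarith
  have hN't : t ^ 2 / 4 ≤ N' := by
    have : (t / 2) ^ 2 ≤ (x + d1) ^ 2 := by
      rw [← sq_abs (x + d1)]
      exact pow_le_pow_left₀ (by linarith) hxd 2
    rw [hN']
    nlinarith [sq_nonneg (y + d2)]
  have hN'pos : 0 < N' := by nlinarith
  have hu_sq : u ^ 2 ≤ N := by
    rw [hu, hN]
    cases k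
    · simp only [Bool.false_eq_true, if_false]; nlinarith [sq_nonneg y]
    · simp only [if_true]; nlinarith [sq_nonneg x]
  have hud : |u' - u| ≤ 1 := by
    rw [hu, hu']
    cases k
    · simp only [Bool.false_eq_true, if_false]; rw [add_sub_cancel_left]; exact h1
    · simp only [if_true]; rw [add_sub_cancel_left]; exact h2
  set s := Real.sqrt N with hs
  have hs2 : s ^ 2 = N := Real.sq_sqrt hNpos.le
  have hs0 : 0 ≤ s := Real.sqrt_nonneg _
  have hst : t ≤ s := by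
    rw [hs]; exact Real.le_sqrt_of_sq_le hNt
  have hus : |u| ≤ s := abs_le_of_sq_le_sq (by rw [hs2]; exact hu_sq) hs0
  have hxs : |x| ≤ s := abs_le_of_sq_le_sq (by rw [hs2, hN]; nlinarith [sq_nonneg y]) hs0
  have hys : |y| ≤ s := abs_le_of_sq_le_sq (by rw [hs2, hN]; nlinarith [sq_nonneg x]) hs0
  have hNN : |N - N'| ≤ 4 * s + 2 := by
    have e : N - N' = -(2 * (x * d1) + 2 * (y * d2) + (d1 ^ 2 + d2 ^ 2)) := by
      rw [hN, hN']; ring
    rw [e, abs_neg]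
    have a1 : |2 * (x * d1)| ≤ 2 * s := by
      rw [abs_mul, abs_mul, abs_two]
      nlinarith [mul_le_mul hxs h1 (abs_nonneg _) hs0]
    have a2 : |2 * (y * d2)| ≤ 2 * s := by
      rw [abs_mul, abs_mul, abs_two]
      nlinarith [mul_le_mul hys h2 (abs_nonneg _) hs0]
    have a3 : |d1 ^ 2 + d2 ^ 2| ≤ 2 := by
      have b1 : d1 ^ 2 ≤ 1 := by rw [← sq_abs]; exact pow_le_one₀ (abs_nonneg _) h1
      have b2 : d2 ^ 2 ≤ 1 := by rw [← sq_abs]; exact pow_le_one₀ (abs_nonneg _) h2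
      rw [abs_of_nonneg (by positivity)]; linarith
    refine (abs_add_three _ _ _).trans (by linarith)
  have hdiff : u' / N' - u / N = ((u' - u) * N + u * (N - N')) / (N * N') := by
    field_simp
    ring
  rw [hdiff, abs_div, abs_of_pos (mul_pos hNpos hN'pos), div_le_div_iff₀ (mul_pos hNpos hN'pos)
    (by positivity)]
  have hnum : |(u' - u) * N + u * (N - N')| ≤ 6 * N := by
    have b1 : |(u' - u) * N| ≤ 1 * N := by
      rw [abs_mul, abs_of_pos hNpos]; exact mul_le_mul_of_nonneg_right hud hNpos.le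
    have b2 : |u * (N - N')| ≤ s * (4 * s + 2) := by
      rw [abs_mul]; exact mul_le_mul hus hNN (abs_nonneg _) hs0
    have b3 : s * (4 * s + 2) ≤ 5 * N := by nlinarith
    refine (abs_add_le _ _).trans (by linarith)
  calc |(u' - u) * N + u * (N - N')| * t ^ 2 ≤ 6 * N * t ^ 2 :=
        mul_le_mul_of_nonneg_right hnum (by positivity)
    _ ≤ 24 * (N * N') := by nlinarith

/-- (2) the kernel lemma -/
theorem kernel {A : Pt → ℝ} (hA : IsPlane A) : ∃ C : ℝ, 0 ≤ C ∧ ∀ (t : ℝ), 2 ≤ t →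
    ∀ (p q d : Pt), |(d.1 : ℝ)| ≤ 1 → |(d.2 : ℝ)| ≤ 1 → Odd ((p + d - q).1 + (p + d - q).2) →
    t ≤ |(p.1 : ℝ) - q.1| → ∀ k : Bool, (k = false ↔ Odd (p + d - q).1) →
    |t * A (p + d - q) - 1 / Real.pi * kap k (((p.1 : ℝ) - q.1) / t) (((p.2 : ℝ) - q.2) / t)| ≤
      C / t := by
  obtain ⟨C, hC⟩ := hA.asymp
  refine ⟨4 * |C| + 24, by positivity, fun t ht p q d hd1 hd2 hodd htx k hk => ?_⟩
  have ht0 : 0 < t := by linarith
  set X : ℝ := (p.1 : ℝ) - q.1 with hX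
  set Y : ℝ := (p.2 : ℝ) - q.2 with hY
  have hz1 : ((p + d - q).1 : ℝ) = X + d.1 := by
    rw [hX]; push_cast [Prod.fst_add, Prod.fst_sub]; ring
  have hz2 : ((p + d - q).2 : ℝ) = Y + d.2 := by
    rw [hY]; push_cast [Prod.snd_add, Prod.snd_sub]; ring
  have hXsq : t ^ 2 ≤ X ^ 2 := by
    rw [← sq_abs X]; exact pow_le_pow_left₀ ht0.le htx 2
  have hpos : 0 < X ^ 2 + Y ^ 2 := by nlinarith [sq_nonneg Y]
  have hxd : t / 2 ≤ |X + d.1| := by
    have : |X| ≤ |X + d.1| + |(d.1 : ℝ)| := by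
      have e : X = (X + d.1) + (-(d.1 : ℝ)) := by ring
      calc |X| = |(X + d.1) + (-(d.1 : ℝ))| := by rw [← e]
        _ ≤ |X + d.1| + |-(d.1 : ℝ)| := abs_add_le _ _
        _ = |X + d.1| + |(d.1 : ℝ)| := by rw [abs_neg]
    linarith
  have hns : t ^ 2 / 4 ≤ nsq (p + d - q) := by
    unfold nsq
    rw [hz1, hz2]
    have : (t / 2) ^ 2 ≤ (X + d.1) ^ 2 := by
      rw [← sq_abs (X + d.1)]
      exact pow_le_pow_left₀ (by linarith) hxd 2
    nlinarith [sq_nonneg (Y + d.2)]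
  have hnpos : 0 < nsq (p + d - q) := by nlinarith
  have h1 : |t * A (p + d - q) - t * Alead (p + d - q)| ≤ 4 * |C| / t := by
    rw [← mul_sub, abs_mul, abs_of_pos ht0]
    calc t * |A (p + d - q) - Alead (p + d - q)| ≤ t * (C / nsq (p + d - q)) :=
          mul_le_mul_of_nonneg_left (hC _ hodd) ht0.le
      _ ≤ t * (|C| / (t ^ 2 / 4)) := by
          apply mul_le_mul_of_nonneg_left _ ht0.le
          exact div_le_div₀ (abs_nonneg _) (le_abs_self _) (by positivity) hns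
      _ = 4 * |C| / t := by field_simp
  have h2 : t * Alead (p + d - q) = 1 / Real.pi * (t * ((if k then Y + d.2 else X + d.1) /
      ((X + d.1) ^ 2 + (Y + d.2) ^ 2))) := by
    unfold Alead nsq
    rw [hz1, hz2]
    have hkk : (if Odd (p + d - q).1 then X + d.1 else Y + d.2 : ℝ) =
        (if k then Y + d.2 else X + d.1 : ℝ) := by
      cases k
      · rw [if_pos (hk.1 rfl)]; simp
      · rw [if_neg (fun h => by simpa using hk.2 h)]; simp
    rw [hkk]
    have hden : (X + d.1) ^ 2 + (Y + d.2) ^ 2 ≠ 0 := by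
      have : nsq (p + d - q) = (X + d.1) ^ 2 + (Y + d.2) ^ 2 := by
        unfold nsq; rw [hz1, hz2]
      rw [← this]; exact hnpos.ne'
    field_simp
  rw [kap_scale k ht0 hpos]
  have h3 : |t * Alead (p + d - q) - 1 / Real.pi * (t * ((if k then Y else X) / (X ^ 2 + Y ^ 2)))| ≤
      24 / t := by
    rw [h2, ← mul_sub, ← mul_sub, abs_mul, abs_mul, abs_of_pos ht0]
    have hs := lead_shift k (y := Y) ht htx hd1 hd2
    have hpi : |1 / Real.pi| ≤ 1 := by
      rw [abs_of_pos (by positivity), div_le_one Real.pi_pos]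
      linarith [Real.pi_gt_three]
    calc |1 / Real.pi| * (t * |(if k = true then Y + (d.2 : ℝ) else X + d.1) /
            ((X + d.1) ^ 2 + (Y + d.2) ^ 2) - (if k = true then Y else X) / (X ^ 2 + Y ^ 2)|)
        ≤ 1 * (t * (24 / t ^ 2)) :=
          mul_le_mul hpi (mul_le_mul_of_nonneg_left hs ht0.le) (by positivity) zero_le_one
      _ = 24 / t := by field_simp
  calc |t * A (p + d - q) - 1 / Real.pi * (t * ((if k = true then Y else X) / (X ^ 2 + Y ^ 2)))|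
      ≤ |t * A (p + d - q) - t * Alead (p + d - q)| +
        |t * Alead (p + d - q) -
          1 / Real.pi * (t * ((if k = true then Y else X) / (X ^ 2 + Y ^ 2)))| :=
        abs_sub_le _ _ _
    _ ≤ 4 * |C| / t + 24 / t := add_le_add h1 h3
    _ = (4 * |C| + 24) / t := by ring

/-- shifting the first point by a small vector in the rescaled coordinates -/
theorem sc4_shift (x : Pt) {t : ℝ} (ht : 0 < t) (p q d : Pt) (hd1 : |(d.1 : ℝ)| ≤ 1)
    (hd2 : |(d.2 : ℝ)| ≤ 1) (i : Fin 4) : |sc4 x t (p + d) q i - sc4 x t p q i| ≤ 1 / t := by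
  have h0 : 0 ≤ 1 / t := by positivity
  have e : ∀ a b c : ℝ, |c| ≤ 1 → |(a + c - b) / t - (a - b) / t| ≤ 1 / t := by
    intro a b c hc
    have : (a + c - b) / t - (a - b) / t = c / t := by ring
    rw [this, abs_div, abs_of_pos ht]
    exact div_le_div_of_nonneg_right hc ht.le
  fin_cases i
  · show |(((p + d).1 : ℝ) - x.1) / t - ((p.1 : ℝ) - x.1) / t| ≤ 1 / t
    rw [Prod.fst_add]; push_cast; exact e _ _ _ hd1
  · show |(((p + d).2 : ℝ) - x.2) / t - ((p.2 : ℝ) - x.2) / t| ≤ 1 / t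
    rw [Prod.snd_add]; push_cast; exact e _ _ _ hd2
  · show |((q.1 : ℝ) - x.1) / t - ((q.1 : ℝ) - x.1) / t| ≤ 1 / t
    rw [sub_self, abs_zero]; exact h0
  · show |((q.2 : ℝ) - x.2) / t - ((q.2 : ℝ) - x.2) / t| ≤ 1 / t
    rw [sub_self, abs_zero]; exact h0

theorem abs_le_one_of_reg {z : Fin 4 → ℝ} (hz : z ∈ reg) (i : Fin 4) : |z i| ≤ 1 := by
  obtain ⟨⟨h1, h2⟩, ⟨h3, h3'⟩, ⟨h4, h5⟩, ⟨h6, h7⟩⟩ := mem_reg.1 hz
  fin_cases i
  · exact abs_le.2 ⟨by show -1 ≤ z 0; linarith, by show z 0 ≤ 1; linarith⟩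
  · exact abs_le.2 ⟨by show -1 ≤ z 1; linarith, by show z 1 ≤ 1; linarith⟩
  · exact abs_le.2 ⟨by show -1 ≤ z 2; linarith, by show z 2 ≤ 1; linarith⟩
  · exact abs_le.2 ⟨by show -1 ≤ z 3; linarith, by show z 3 ≤ 1; linarith⟩

theorem reg_dist {x : Pt} {t : ℝ} (ht : 0 < t) {p q : Pt} (hz : sc4 x t p q ∈ reg) :
    t ≤ |(p.1 : ℝ) - q.1| := by
  obtain ⟨⟨h1, _⟩, _, ⟨_, h5⟩, _⟩ := mem_reg.1 hz
  have h1' : 1 / 2 < ((p.1 : ℝ) - x.1) / t := h1
  have h5' : ((q.1 : ℝ) - x.1) / t < -1 / 2 := h5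
  rw [lt_div_iff₀ ht] at h1'
  rw [div_lt_iff₀ ht] at h5'
  rw [le_abs]
  left
  linarith

/-- the sign in front of the kernel: `1` for `d = (1,0)`, `(-1)^y` for `d = (0,1)` -/
noncomputable def sgd (d : Pt) (y : ℤ) : ℝ := if Odd d.1 then 1 else sg y

theorem abs_sgd (d : Pt) (y : ℤ) : |sgd d y| = 1 := by
  unfold sgd sg
  split_ifs <;> simp

/-- the type of the kernel -/
def kd (d : Pt) : Bool := decide (¬ Odd d.1)

theorem Kp_eq {A : Pt → ℝ} {p q d : Pt} (hp : Even (p.1 - q.1)) :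
    Kp A (p + d) q = sgd d q.2 * A (p + d - q) := by
  unfold Kp sgd
  have : Odd ((p + d).1 - q.1) ↔ Odd d.1 := by
    have e : (p + d).1 - q.1 = (p.1 - q.1) + d.1 := by rw [Prod.fst_add]; ring
    rw [e]
    constructor
    · intro h
      by_contra hh
      rw [Int.not_odd_iff_even] at hh
      exact (Int.not_odd_iff_even.2 (hp.add hh)) h
    · intro h; exact hp.add_odd h
  simp only [this]

/-- approximation of `Q (p+d) q`, for separated points -/
theorem approx0 {A : Pt → ℝ} (hA : IsPlane A) (J : ℕ) : ∃ C : ℝ, 0 ≤ C ∧ ∀ (t : ℝ), 2 ≤ t →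
    ∀ (x p q d : Pt) (c : Cf J) (v δ : ℝ), (d = (1, 0) ∨ d = (0, 1)) → Even (p.1 - q.1) →
    Even (p.2 - q.2) → t ≤ |(p.1 : ℝ) - q.1| → (∀ i, |sc4 x t p q i| ≤ 1) →
    |v - Kp A (p + d) q - t⁻¹ * Pc c (sc4 x t (p + d) q)| ≤ δ →
    |t * v - vv (kd d) (sgd d q.2 / Real.pi) c (sc4 x t p q)| ≤ t * δ + C / t * max 1 ‖c‖ := by
  obtain ⟨C, hC0, hC⟩ := kernel hA
  refine ⟨C + CS J, add_nonneg hC0 (CS_nonneg J), fun t ht x p q d c v δ hd hp hq hpq hz hv => ?_⟩
  have ht0 : 0 < t := by linarith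
  have hd1 : |(d.1 : ℝ)| ≤ 1 := by rcases hd with rfl | rfl <;> simp
  have hd2 : |(d.2 : ℝ)| ≤ 1 := by rcases hd with rfl | rfl <;> simp
  have hodd : Odd ((p + d - q).1 + (p + d - q).2) := by
    have e : (p + d - q).1 + (p + d - q).2 = (p.1 - q.1) + (p.2 - q.2) + (d.1 + d.2) := by
      simp only [Prod.fst_sub, Prod.snd_sub, Prod.fst_add, Prod.snd_add]; ring
    rw [e]
    refine (hp.add hq).add_odd ?_
    rcases hd with rfl | rfl <;> simp
  have hk : kd d = false ↔ Odd (p + d - q).1 := by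
    have e : (p + d - q).1 = (p.1 - q.1) + d.1 := by
      simp only [Prod.fst_sub, Prod.fst_add]; ring
    rw [e]
    rcases hd with rfl | rfl
    · simp only [kd]
      constructor
      · intro _; exact hp.add_odd odd_one
      · intro _; simp
    · simp only [kd, add_zero]
      constructor
      · intro h; simp at h
      · intro h; exact absurd h (Int.not_odd_iff_even.2 hp)
  have h1 := hC t ht p q d hd1 hd2 hodd hpq (kd d) hk
  have h2 : |Pc c (sc4 x t (p + d) q) - Pc c (sc4 x t p q)| ≤ CS J * (1 / t) * ‖c‖ :=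
    Pc_shift c hz (sc4_shift x ht0 p q d hd1 hd2)
      (by rw [div_le_one ht0]; linarith)
  rw [Kp_eq hp] at hv
  have hX : ((p.1 : ℝ) - q.1) / t = sc4 x t p q 0 - sc4 x t p q 2 := by
    show _ = ((p.1 : ℝ) - x.1) / t - ((q.1 : ℝ) - x.1) / t
    ring
  have hY : ((p.2 : ℝ) - q.2) / t = sc4 x t p q 1 - sc4 x t p q 3 := by
    show _ = ((p.2 : ℝ) - x.2) / t - ((q.2 : ℝ) - x.2) / t
    ring
  rw [hX, hY] at h1
  unfold vv
  set κ := kap (kd d) (sc4 x t p q 0 - sc4 x t p q 2) (sc4 x t p q 1 - sc4 x t p q 3)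
  set s := sgd d q.2 with hs
  have hs1 : |s| = 1 := abs_sgd _ _
  have e : t * v - (s / Real.pi * κ + Pc c (sc4 x t p q)) =
      t * (v - s * A (p + d - q) - t⁻¹ * Pc c (sc4 x t (p + d) q)) +
      s * (t * A (p + d - q) - 1 / Real.pi * κ) +
      (Pc c (sc4 x t (p + d) q) - Pc c (sc4 x t p q)) := by
    field_simp
    ring
  rw [e]
  have a1 : |t * (v - s * A (p + d - q) - t⁻¹ * Pc c (sc4 x t (p + d) q))| ≤ t * δ := by
    rw [abs_mul, abs_of_pos ht0]; exact mul_le_mul_of_nonneg_left hv ht0.le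
  have a2 : |s * (t * A (p + d - q) - 1 / Real.pi * κ)| ≤ C / t := by
    rw [abs_mul, hs1, one_mul]; exact h1
  refine (abs_add_three _ _ _).trans ((add_le_add (add_le_add a1 a2) h2).trans ?_)
  have b1 : (1 : ℝ) ≤ max 1 ‖c‖ := le_max_left _ _
  have b2 : ‖c‖ ≤ max 1 ‖c‖ := le_max_right _ _
  have b3 : C / t ≤ C / t * max 1 ‖c‖ := le_mul_of_one_le_right (by positivity) b1
  have b4 : CS J * (1 / t) * ‖c‖ ≤ CS J / t * max 1 ‖c‖ := by
    have : CS J * (1 / t) = CS J / t := by ring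
    rw [this]
    exact mul_le_mul_of_nonneg_left b2 (div_nonneg (CS_nonneg J) ht0.le)
  calc t * δ + C / t + CS J * (1 / t) * ‖c‖ ≤ t * δ + C / t * max 1 ‖c‖ + CS J / t * max 1 ‖c‖ := by
        linarith
    _ = t * δ + (C + CS J) / t * max 1 ‖c‖ := by ring

/-- approximation of `Q (p+d) q` -/
theorem approx_f {A : Pt → ℝ} (hA : IsPlane A) (J : ℕ) : ∃ C : ℝ, 0 ≤ C ∧ ∀ (t : ℝ), 2 ≤ t →
    ∀ (x p q d : Pt) (c : Cf J) (v δ : ℝ), (d = (1, 0) ∨ d = (0, 1)) → Even (p.1 - q.1) →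
    Even (p.2 - q.2) → sc4 x t p q ∈ reg →
    |v - Kp A (p + d) q - t⁻¹ * Pc c (sc4 x t (p + d) q)| ≤ δ →
    |t * v - vv (kd d) (sgd d q.2 / Real.pi) c (sc4 x t p q)| ≤ t * δ + C / t * max 1 ‖c‖ := by
  obtain ⟨C, hC0, hC⟩ := approx0 hA J
  refine ⟨C, hC0, fun t ht x p q d c v δ hd hp hq hz hv => ?_⟩
  exact hC t ht x p q d c v δ hd hp hq (reg_dist (by linarith) hz) (abs_le_one_of_reg hz) hv

/-- approximation of `Q (q+d) p` as a function of `(p, q)` -/
theorem approx_g {A : Pt → ℝ} (hA : IsPlane A) (J : ℕ) : ∃ C : ℝ, 0 ≤ C ∧ ∀ (t : ℝ), 2 ≤ t →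
    ∀ (x p q d : Pt) (c : Cf J) (v δ : ℝ), (d = (1, 0) ∨ d = (0, 1)) → Even (p.1 - q.1) →
    Even (p.2 - q.2) → sc4 x t p q ∈ reg →
    |v - Kp A (q + d) p - t⁻¹ * Pc c (sc4 x t (q + d) p)| ≤ δ →
    |t * v - vv (kd d) (-(sgd d p.2 / Real.pi)) (perm c) (sc4 x t p q)| ≤
      t * δ + C / t * max 1 ‖c‖ := by
  obtain ⟨C, hC0, hC⟩ := approx0 hA J
  refine ⟨C, hC0, fun t ht x p q d c v δ hd hp hq hz hv => ?_⟩
  have hsw := sc4_swap x t p q
  have h1 : t ≤ |(q.1 : ℝ) - p.1| := by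
    rw [abs_sub_comm]; exact reg_dist (by linarith) hz
  have h2 : ∀ i, |sc4 x t q p i| ≤ 1 := fun i => by
    rw [hsw]; exact abs_le_one_of_reg hz (tau i)
  have hp' : Even (q.1 - p.1) := by
    have := hp.neg; rwa [neg_sub] at this
  have hq' : Even (q.2 - p.2) := by
    have := hq.neg; rwa [neg_sub] at this
  have h := hC t ht x q p d c v δ hd hp' hq' h1 h2 hv
  rwa [hsw, vv_perm] at h

end Vale.Agent.P155.D4
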